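import Mathlib
import Vale.Agent.Lib.P243.CapMain

/-!
The cone inequality for one chord (Bezdek-Litvak, pointwise form) and the capture bound for a
compact subset whose sections along the axis are short.
-/

namespace Vale.Agent.Lib.P243.H80

open MeasureTheory Set
open scoped RealInnerProductSpace Pointwise

lemma integral_cone (M : ℝ) (hM : 0 < M) : ∫ t in (0 : ℝ)..M, (1 - t / M) ^ 2 = M / 3 := by
  have h : ∫ t in (0 : ℝ)..M, (1 - t / M) ^ 2 = M • ∫ x in (1 - M / M)..(1 - 0 / M), x ^ 2 :=
    intervalIntegral.integral_comp_sub_div (a := (0 : ℝ)) (b := M)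
      (fun u : ℝ => u ^ 2) (c := M) hM.ne' 1
  rw [h, integral_pow, div_self hM.ne']
  simp
  ring

lemma lintegral_cone (M : ℝ) (hM : 0 < M) :
    ∫⁻ t in Ioc (0 : ℝ) M, ENNReal.ofReal ((1 - t / M) ^ 2) = ENNReal.ofReal (M / 3) := by
  have hint : IntegrableOn (fun t : ℝ => (1 - t / M) ^ 2) (Ioc 0 M) :=
    ((Continuous.continuousOn (by fun_prop)).integrableOn_compact isCompact_Icc).mono_set
      Ioc_subset_Icc_self
  rw [← ofReal_integral_eq_lintegral_ofReal hint
    (Filter.Eventually.of_forall fun s => sq_nonneg _),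
    ← intervalIntegral.integral_of_le hM.le, integral_cone M hM]

lemma haar_plane : (volume : Measure (ℝ × ℝ)).IsAddHaarMeasure :=
  inferInstanceAs ((volume : Measure ℝ).prod (volume : Measure ℝ)).IsAddHaarMeasure

/-- The cone inequality: the length of any chord of a compact convex set along the first
coordinate, times the area of the projection, is at most three times the volume. -/
theorem chord_area_le (K : Set (ℝ × (ℝ × ℝ))) (hK : IsCompact K) (hc : Convex ℝ K)
    (q0 : ℝ × ℝ) (hq0 : q0 ∈ Prod.snd '' K) :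
    ENNReal.ofReal (Cap.len K q0) * volume (Prod.snd '' K) ≤ 3 * volume K := by
  set M := Cap.len K q0 with hMdef
  rcases le_or_gt M 0 with hM | hM
  · rw [ENNReal.ofReal_of_nonpos hM, zero_mul]
    exact zero_le
  have hfam := Cap.lev_family hK hc
  have := haar_plane
  have hPfin : volume (Prod.snd '' K) ≠ ⊤ := (hK.image continuous_snd).measure_lt_top.ne
  have hq0lev : q0 ∈ Cap.lev K M := ⟨hq0, le_rfl⟩
  have key : ∀ t ∈ Ioc (0 : ℝ) M,
      ENNReal.ofReal ((1 - t / M) ^ 2) * volume (Prod.snd '' K) ≤ volume (Cap.lev K t) := by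
    intro t ht
    set θ := 1 - t / M with hθ
    have hθ0 : 0 ≤ θ := by
      rw [hθ, sub_nonneg, div_le_one hM]
      exact ht.2
    have hθ1 : θ ≤ 1 := by
      rw [hθ]
      have : 0 ≤ t / M := div_nonneg ht.1.le hM.le
      linarith
    have hsub : AffineMap.homothety q0 θ '' (Prod.snd '' K) ⊆ Cap.lev K t := by
      rintro _ ⟨q, hq, rfl⟩
      have hqlev : q ∈ Cap.lev K 0 := ⟨hq, Cap.len_nonneg q⟩
      have h := hfam.conc M 0 θ hM.le le_rfl hθ0 hθ1 q0 hq0lev q hqlev
      have e1 : (1 - θ) * M + θ * 0 = t := by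
        rw [hθ]
        field_simp
        ring
      have e2 : AffineMap.homothety q0 θ q = (1 - θ) • q0 + θ • q := by
        rw [AffineMap.homothety_apply]
        simp only [vsub_eq_sub, vadd_eq_add, smul_sub, sub_smul, one_smul]
        abel
      rw [e1] at h
      rw [e2]
      exact h
    have hfr : Module.finrank ℝ (ℝ × ℝ) = 2 := by simp
    calc ENNReal.ofReal ((1 - t / M) ^ 2) * volume (Prod.snd '' K)
        = volume (AffineMap.homothety q0 θ '' (Prod.snd '' K)) := by
          rw [Measure.addHaar_image_homothety, hfr, abs_of_nonneg (sq_nonneg _)]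
      _ ≤ _ := measure_mono hsub
  have hint : ENNReal.ofReal (M / 3) * volume (Prod.snd '' K) ≤ volume K := by
    calc ENNReal.ofReal (M / 3) * volume (Prod.snd '' K)
        = ∫⁻ t in Ioc (0 : ℝ) M, ENNReal.ofReal ((1 - t / M) ^ 2) * volume (Prod.snd '' K) := by
          rw [lintegral_mul_const' _ _ hPfin, lintegral_cone M hM]
      _ ≤ ∫⁻ t in Ioc (0 : ℝ) M, volume (Cap.lev K t) :=
          setLIntegral_mono' measurableSet_Ioc key
      _ ≤ ∫⁻ t in Ioi (0 : ℝ), volume (Cap.lev K t) :=
          lintegral_mono_set Ioc_subset_Ioi_self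
      _ = volume K := (Cap.vol_eq hK).symm
  have h3 : ENNReal.ofReal M = 3 * ENNReal.ofReal (M / 3) := by
    rw [show (3 : ENNReal) = ENNReal.ofReal 3 by simp, ← ENNReal.ofReal_mul (by norm_num)]
    congr 1
    ring
  rw [h3, mul_assoc]
  gcongr

/-- Capture bound for a compact set whose sections along the first coordinate have diameter at
most `L`. -/
theorem sub_capture (K' : Set (ℝ × (ℝ × ℝ))) (hK' : IsCompact K') (L : ℝ)
    (hdiam : ∀ z ∈ K', ∀ z' ∈ K', z.2 = z'.2 → z'.1 - z.1 ≤ L)
    (W : Set (ℝ × ℝ)) (hW : MeasurableSet W) :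
    volume (K' ∩ univ ×ˢ W) ≤ ENNReal.ofReal L * volume W := by
  have hm : MeasurableSet (K' ∩ (univ : Set ℝ) ×ˢ W) :=
    hK'.measurableSet.inter (MeasurableSet.univ.prod hW)
  have hsec : ∀ q, volume ((fun ζ : ℝ => (ζ, q)) ⁻¹' (K' ∩ (univ : Set ℝ) ×ˢ W))
      ≤ W.indicator (fun _ => ENNReal.ofReal L) q := by
    intro q
    by_cases hq : q ∈ W
    · rw [indicator_of_mem hq]
      have hfib : (fun ζ : ℝ => (ζ, q)) ⁻¹' (K' ∩ (univ : Set ℝ) ×ˢ W) = Cap.fib K' q := by
        ext ζ
        simp [Cap.fib, hq]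
      rw [hfib]
      rcases (Cap.fib K' q).eq_empty_or_nonempty with he | hne
      · rw [he, measure_empty]
        exact zero_le
      · obtain ⟨m, hm1, hm2⟩ := (Cap.fib_compact hK' q).exists_isLeast hne
        have hsub : Cap.fib K' q ⊆ Icc m (m + L) := by
          intro ζ hζ
          refine ⟨hm2 hζ, ?_⟩
          have := hdiam (m, q) hm1 (ζ, q) hζ rfl
          simp only at this
          linarith
        refine (measure_mono hsub).trans ?_
        rw [Real.volume_Icc]
        apply ENNReal.ofReal_le_ofReal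
        linarith
    · rw [indicator_of_notMem hq]
      have : (fun ζ : ℝ => (ζ, q)) ⁻¹' (K' ∩ (univ : Set ℝ) ×ˢ W) = ∅ := by
        ext ζ
        simp [hq]
      rw [this, measure_empty]
  calc volume (K' ∩ univ ×ˢ W)
      = ∫⁻ q, volume ((fun ζ : ℝ => (ζ, q)) ⁻¹' (K' ∩ (univ : Set ℝ) ×ˢ W)) := by
        rw [Measure.volume_eq_prod, Measure.prod_apply_symm hm]
    _ ≤ ∫⁻ q, W.indicator (fun _ => ENNReal.ofReal L) q := lintegral_mono hsec
    _ = ENNReal.ofReal L * volume W := by
        rw [lintegral_indicator hW, setLIntegral_const]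

/-- Model form of the core lemma: if the compact convex set `K` has a chord of length `c` along
the first coordinate and the sections of the compact set `K'` along the first coordinate have
diameter at most `ρ * c`, then a cylinder over `W` captures at most `3 ρ |W| / |P|` of the
volume of `K` inside `K'`, `P` being the projection of `K`. -/
theorem model_sub (K K' : Set (ℝ × (ℝ × ℝ))) (hK : IsCompact K) (hc : Convex ℝ K)
    (hK' : IsCompact K') (c ρ : ℝ) (hc0 : 0 ≤ c) (hρ : 0 ≤ ρ)
    (hchord : ∃ ζ q, (ζ, q) ∈ K ∧ (ζ + c, q) ∈ K)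
    (hdiam : ∀ z ∈ K', ∀ z' ∈ K', z.2 = z'.2 → z'.1 - z.1 ≤ ρ * c)
    (W : Set (ℝ × ℝ)) (hW : MeasurableSet W) :
    volume (K' ∩ univ ×ˢ W) * volume (Prod.snd '' K)
      ≤ ENNReal.ofReal (3 * ρ) * volume K * volume W := by
  obtain ⟨ζ, q, h1, h2⟩ := hchord
  have hq : q ∈ Prod.snd '' K := ⟨(ζ, q), h1, rfl⟩
  have hlen : ENNReal.ofReal c ≤ ENNReal.ofReal (Cap.len K q) := by
    rw [Cap.ofReal_len hK]
    have hsub : Icc ζ (ζ + c) ⊆ Cap.fib K q := by
      intro x hx
      have hseg := hc.segment_subset h1 h2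
      apply hseg
      rw [segment_eq_image_lineMap]
      rcases eq_or_lt_of_le hc0 with h0 | h0
      · have hxz : x = ζ := by
          have := hx.1
          have := hx.2
          linarith
        refine ⟨0, ⟨le_rfl, zero_le_one⟩, ?_⟩
        simp [hxz]
      · refine ⟨(x - ζ) / c, ⟨div_nonneg (by linarith [hx.1]) h0.le, ?_⟩, ?_⟩
        · rw [div_le_one h0]
          linarith [hx.2]
        · rw [AffineMap.lineMap_apply]
          ext
          · simp only [vsub_eq_sub, vadd_eq_add, Prod.mk_sub_mk, Prod.smul_mk, Prod.mk_add_mk,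
              smul_eq_mul]
            field_simp
            ring
          · simp
          · simp
    calc ENNReal.ofReal c = volume (Icc ζ (ζ + c)) := by
          rw [Real.volume_Icc]
          congr 1
          ring
      _ ≤ _ := measure_mono hsub
  have hcone := chord_area_le K hK hc q hq
  have hcap := sub_capture K' hK' (ρ * c) hdiam W hW
  calc volume (K' ∩ univ ×ˢ W) * volume (Prod.snd '' K)
      ≤ (ENNReal.ofReal (ρ * c) * volume W) * volume (Prod.snd '' K) := by gcongr
    _ = ENNReal.ofReal ρ * (ENNReal.ofReal c * volume (Prod.snd '' K)) * volume W := by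
        rw [ENNReal.ofReal_mul hρ]
        ring
    _ ≤ ENNReal.ofReal ρ * (3 * volume K) * volume W := by
        have hin : ENNReal.ofReal c * volume (Prod.snd '' K) ≤ 3 * volume K :=
          (mul_le_mul_left hlen (volume (Prod.snd '' K))).trans hcone
        gcongr ENNReal.ofReal ρ * ?_ * volume W
    _ = ENNReal.ofReal (3 * ρ) * volume K * volume W := by
        rw [ENNReal.ofReal_mul (by norm_num)]
        simp only [ENNReal.ofReal_ofNat]
        ring

end Vale.Agent.Lib.P243.H80
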