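import Mathlib

namespace Vale.Agent.Lib.P243.H80

open Finset

/-- Barycentric weights of a point of the core of a tetrahedron: nonnegative weights of sum one,
every two of them add up to at least `τ`, and each of them is at most `1 - 2 * τ`. -/
def CoreW (τ : ℝ) (l : Fin 4 → ℝ) : Prop :=
  (∀ i, 0 ≤ l i) ∧ ∑ i, l i = 1 ∧ (∀ i j, i ≠ j → τ ≤ l i + l j) ∧ ∀ i, l i ≤ 1 - 2 * τ

/-- The positive part of the difference of two core weight vectors has total mass at most
`1 - 2 * τ`. -/
theorem core_diam (τ : ℝ) (l m : Fin 4 → ℝ) (hl : CoreW τ l) (hm : CoreW τ m) :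
    ∑ i, max (m i - l i) 0 ≤ 1 - 2 * τ := by
  obtain ⟨hl0, hl1, hl2, hl3⟩ := hl
  obtain ⟨hm0, hm1, hm2, hm3⟩ := hm
  rw [Fin.sum_univ_four] at hl1 hm1 ⊢
  have a0 := hl0 0
  have a1 := hl0 1
  have a2 := hl0 2
  have a3 := hl0 3
  have b0 := hm0 0
  have b1 := hm0 1
  have b2 := hm0 2
  have b3 := hm0 3
  have c0 := hl3 0
  have c1 := hl3 1
  have c2 := hl3 2
  have c3 := hl3 3
  have d0 := hm3 0
  have d1 := hm3 1
  have d2 := hm3 2
  have d3 := hm3 3
  have e01 := hl2 0 1 (by decide)
  have e02 := hl2 0 2 (by decide)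
  have e03 := hl2 0 3 (by decide)
  have e12 := hl2 1 2 (by decide)
  have e13 := hl2 1 3 (by decide)
  have e23 := hl2 2 3 (by decide)
  have f01 := hm2 0 1 (by decide)
  have f02 := hm2 0 2 (by decide)
  have f03 := hm2 0 3 (by decide)
  have f12 := hm2 1 2 (by decide)
  have f13 := hm2 1 3 (by decide)
  have f23 := hm2 2 3 (by decide)
  rcases le_total (m 0 - l 0) 0 with h0 | h0 <;>
  rcases le_total (m 1 - l 1) 0 with h1 | h1 <;>
  rcases le_total (m 2 - l 2) 0 with h2 | h2 <;>
  rcases le_total (m 3 - l 3) 0 with h3 | h3 <;>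
  simp only [max_eq_left, max_eq_right, h0, h1, h2, h3] <;>
  linarith

/-- Positive parts of a vector of sum zero: the positive and the negative parts have equal mass. -/
theorem pos_neg_mass (w : Fin 4 → ℝ) (hw : ∑ i, w i = 0) :
    ∑ i, max (-w i) 0 = ∑ i, max (w i) 0 := by
  have h : ∀ i, max (w i) 0 - max (-w i) 0 = w i := by
    intro i
    rcases le_total (w i) 0 with h | h
    · rw [max_eq_right h, max_eq_left (by linarith)]; ring
    · rw [max_eq_left h, max_eq_right (by linarith)]; ring
  have h2 : ∑ i, (max (w i) 0 - max (-w i) 0) = ∑ i, w i :=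
    Finset.sum_congr rfl (fun i _ => h i)
  rw [Finset.sum_sub_distrib, hw] at h2
  linarith

/-- A nonzero vector of sum zero has positive mass in its positive part. -/
theorem pos_mass_pos (w : Fin 4 → ℝ) (hw : ∑ i, w i = 0) (hne : w ≠ 0) :
    0 < ∑ i, max (w i) 0 := by
  by_contra hcon
  have hle : ∑ i, max (w i) 0 ≤ 0 := not_lt.mp hcon
  have hnn : ∀ i ∈ (Finset.univ : Finset (Fin 4)), 0 ≤ max (w i) 0 := fun i _ => le_max_right _ _
  have hz : ∑ i, max (w i) 0 = 0 := le_antisymm hle (Finset.sum_nonneg hnn)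
  have hz' := (Finset.sum_eq_zero_iff_of_nonneg hnn).mp hz
  have hz2 : ∑ i, max (-w i) 0 = 0 := by rw [pos_neg_mass w hw, hz]
  have hnn2 : ∀ i ∈ (Finset.univ : Finset (Fin 4)), 0 ≤ max (-w i) 0 := fun i _ => le_max_right _ _
  have hz2' := (Finset.sum_eq_zero_iff_of_nonneg hnn2).mp hz2
  apply hne
  funext i
  have h1 := hz' i (Finset.mem_univ i)
  have h2 := hz2' i (Finset.mem_univ i)
  have h3 : w i ≤ 0 := by
    have := le_max_left (w i) 0
    linarith
  have h4 : -w i ≤ 0 := by
    have := le_max_left (-w i) 0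
    linarith
  simp only [Pi.zero_apply]
  linarith

/-- Scaling the positive part. -/
theorem max_scale (t x : ℝ) :
    max (t * x) 0 = max t 0 * max x 0 + max (-t) 0 * max (-x) 0 := by
  rcases le_total t 0 with ht | ht <;> rcases le_total x 0 with hx | hx
  · rw [max_eq_right ht, max_eq_right hx, max_eq_left (by linarith : (0:ℝ) ≤ -t),
      max_eq_left (by linarith : (0:ℝ) ≤ -x), max_eq_left (mul_nonneg_of_nonpos_of_nonpos ht hx)]
    ring
  · rw [max_eq_right ht, max_eq_left hx, max_eq_left (by linarith : (0:ℝ) ≤ -t),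
      max_eq_right (by linarith : -x ≤ 0), max_eq_right (mul_nonpos_of_nonpos_of_nonneg ht hx)]
    ring
  · rw [max_eq_left ht, max_eq_right hx, max_eq_right (by linarith : -t ≤ 0),
      max_eq_left (by linarith : (0:ℝ) ≤ -x), max_eq_right (mul_nonpos_of_nonneg_of_nonpos ht hx)]
    ring
  · rw [max_eq_left ht, max_eq_left hx, max_eq_right (by linarith : -t ≤ 0),
      max_eq_right (by linarith : -x ≤ 0), max_eq_left (mul_nonneg ht hx)]
    ring

/-- The chord lemma for a tetrahedron.  Let `v` be affinely independent and let the direction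
`u ≠ 0` be written as `u = ∑ w i • v i` with `∑ w i = 0`.  Then there are two points of the
tetrahedron (weights `p`, `q` in the standard simplex) whose difference is `c • u` with `c > 0`,
such that any two points of the core whose difference is `t • u` satisfy
`|t| ≤ (1 - 2 * τ) * c`: in the direction `u` the tetrahedron has a chord of parameter length
`c`, while the core meets every line of that direction in parameter length at most
the product of `1 - 2 * τ` and `c`. -/
theorem tetra_chord {E : Type*} [AddCommGroup E] [Module ℝ E] (v : Fin 4 → E)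
    (hv : AffineIndependent ℝ v) (w : Fin 4 → ℝ) (hw0 : ∑ i, w i = 0) (u : E)
    (hu : ∑ i, w i • v i = u) (hune : u ≠ 0) (τ : ℝ) :
    ∃ (p q : Fin 4 → ℝ) (c : ℝ), 0 < c ∧ (∀ i, 0 ≤ p i) ∧ ∑ i, p i = 1 ∧ (∀ i, 0 ≤ q i) ∧
      ∑ i, q i = 1 ∧ ∑ i, q i • v i - ∑ i, p i • v i = c • u ∧
      ∀ l m : Fin 4 → ℝ, CoreW τ l → CoreW τ m → ∀ t : ℝ,
        ∑ i, m i • v i - ∑ i, l i • v i = t • u → |t| ≤ (1 - 2 * τ) * c := by
  have hwne : w ≠ 0 := by
    intro h
    apply hune
    rw [← hu, h]
    simp
  set s : ℝ := ∑ i, max (w i) 0 with hs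
  have hspos : 0 < s := pos_mass_pos w hw0 hwne
  have hsneg : ∑ i, max (-w i) 0 = s := pos_neg_mass w hw0
  refine ⟨fun i => max (-w i) 0 / s, fun i => max (w i) 0 / s, 1 / s, by positivity,
    fun i => div_nonneg (le_max_right _ _) hspos.le, ?_,
    fun i => div_nonneg (le_max_right _ _) hspos.le, ?_, ?_, ?_⟩
  · rw [← Finset.sum_div, hsneg, div_self hspos.ne']
  · rw [← Finset.sum_div, ← hs, div_self hspos.ne']
  · rw [← Finset.sum_sub_distrib, ← hu, Finset.smul_sum]
    refine Finset.sum_congr rfl (fun i _ => ?_)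
    rw [← sub_smul, smul_smul]
    congr 1
    have h : max (w i) 0 - max (-w i) 0 = w i := by
      rcases le_total (w i) 0 with h | h
      · rw [max_eq_right h, max_eq_left (by linarith)]; ring
      · rw [max_eq_left h, max_eq_right (by linarith)]; ring
    rw [← sub_div, h]
    ring
  · intro l m hl hm t ht
    -- affine independence gives `m - l = t • w`
    have hsum0 : ∑ i, (m i - l i - t * w i) = 0 := by
      rw [Finset.sum_sub_distrib, Finset.sum_sub_distrib, hm.2.1, hl.2.1, ← Finset.mul_sum, hw0]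
      ring
    have hvec0 : ∑ i, (m i - l i - t * w i) • v i = 0 := by
      have h1 : ∑ i, (m i - l i - t * w i) • v i
          = (∑ i, m i • v i - ∑ i, l i • v i) - t • ∑ i, w i • v i := by
        rw [Finset.smul_sum, ← Finset.sum_sub_distrib, ← Finset.sum_sub_distrib]
        refine Finset.sum_congr rfl (fun i _ => ?_)
        rw [sub_smul, sub_smul, mul_smul]
      rw [h1, ht, hu, sub_self]
    have hai := (affineIndependent_iff.mp hv) Finset.univ _ hsum0 hvec0
    have hdiff : ∀ i, m i - l i = t * w i := by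
      intro i
      have := hai i (Finset.mem_univ i)
      linarith
    have hD : ∑ i, max (m i - l i) 0 = |t| * s := by
      have h1 : ∑ i, max (m i - l i) 0
          = ∑ i, (max t 0 * max (w i) 0 + max (-t) 0 * max (-w i) 0) :=
        Finset.sum_congr rfl (fun i _ => by rw [hdiff i, max_scale])
      rw [h1, Finset.sum_add_distrib, ← Finset.mul_sum, ← Finset.mul_sum, hsneg, ← hs,
        ← add_mul]
      congr 1
      rcases le_total t 0 with h | h
      · rw [max_eq_right h, max_eq_left (by linarith : (0:ℝ) ≤ -t), abs_of_nonpos h]; ring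
      · rw [max_eq_left h, max_eq_right (by linarith : -t ≤ 0), abs_of_nonneg h]; ring
    have hle := core_diam τ l m hl hm
    rw [hD] at hle
    rw [mul_one_div, le_div_iff₀ hspos]
    exact hle

end Vale.Agent.Lib.P243.H80
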