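import Mathlib
import Vale.Agent.Lib.P243.helper80.TetraCap

/-!
The core lemma in Euclidean 3-space, for a cylinder whose base plane is spanned by the first
two vectors of an orthonormal basis and whose axis is the third one.
-/

namespace Vale.Agent.Lib.P243.H80

open MeasureTheory Set Vale.Agent.Lib.P243 Vale.Agent.Lib.P243.Cap
open scoped RealInnerProductSpace

/-- If the compact convex set `K` contains two points whose difference is `c` times the axis
vector, and two points of the compact set `K'` on a line parallel to the axis are at parameter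
distance at most `ρ * c`, then the part of `K'` in a cylinder with base coordinates `S` has
volume at most `3 ρ |S| / |P|` times the volume of `K`, `P` being the projection of `K`. -/
theorem e3_sub_capture (K K' : Set E3) (hKc : IsCompact K) (hKconv : Convex ℝ K)
    (hK'c : IsCompact K') (cb : OrthonormalBasis (Fin 3) ℝ E3) (ρ c : ℝ) (hρ : 0 ≤ ρ)
    (hc : 0 ≤ c) (hchord : ∃ x ∈ K, x + c • cb 2 ∈ K)
    (hdiam : ∀ x ∈ K', ∀ t : ℝ, x + t • cb 2 ∈ K' → t ≤ ρ * c)
    (S : Set (ℝ × ℝ)) (hS : MeasurableSet S) :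
    volume (K' ∩ planeCoords (cb 0) (cb 1) ⁻¹' S) * volume (planeCoords (cb 0) (cb 1) '' K)
      ≤ ENNReal.ofReal (3 * ρ) * volume K * volume S := by
  have hΦ : ∀ x, triE cb x = (⟪x, cb 2⟫, planeCoords (cb 0) (cb 1) x) := triE_apply cb
  have hn : triE cb (cb 2) = ((1 : ℝ), ((0 : ℝ), (0 : ℝ))) := by
    rw [hΦ]
    unfold planeCoords
    simp
  have hshift : ∀ (x : E3) (t : ℝ), triE cb (x + t • cb 2) = ((triE cb x).1 + t, (triE cb x).2) := by
    intro x t
    rw [map_add, map_smul, hn]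
    ext <;> simp
  have := haar_model
  obtain ⟨κ, hκ0, hκtop, hκ⟩ := H18.exists_scale (volume : Measure E3)
    (volume : Measure (ℝ × (ℝ × ℝ))) (triE cb) 0
  have hκ' : ∀ X : Set E3, volume (triE cb '' X) = κ * volume X := fun X => by
    simpa using hκ X
  have hKm : IsCompact (triE cb '' K) := hKc.image (triE cb).continuous
  have hKmconv : Convex ℝ (triE cb '' K) := hKconv.linear_image (triE cb).toLinearMap
  have hK'm : IsCompact (triE cb '' K') := hK'c.image (triE cb).continuous
  have hsnd : Prod.snd '' (triE cb '' K) = planeCoords (cb 0) (cb 1) '' K := by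
    rw [image_image]
    apply image_congr
    intro x _
    rw [hΦ]
  have hcap : triE cb '' (K' ∩ planeCoords (cb 0) (cb 1) ⁻¹' S) = (triE cb '' K') ∩ univ ×ˢ S := by
    ext y
    constructor
    · rintro ⟨x, ⟨hx, hxS⟩, rfl⟩
      refine ⟨⟨x, hx, rfl⟩, mem_univ _, ?_⟩
      rw [hΦ]
      exact hxS
    · rintro ⟨⟨x, hx, rfl⟩, -, h2⟩
      rw [hΦ] at h2
      exact ⟨x, ⟨hx, h2⟩, rfl⟩
  have hchordm : ∃ ζ q, (ζ, q) ∈ triE cb '' K ∧ (ζ + c, q) ∈ triE cb '' K := by
    obtain ⟨x, hx, hxc⟩ := hchord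
    exact ⟨(triE cb x).1, (triE cb x).2, ⟨x, hx, rfl⟩, ⟨x + c • cb 2, hxc, hshift x c⟩⟩
  have hdiamm : ∀ z ∈ triE cb '' K', ∀ z' ∈ triE cb '' K', z.2 = z'.2 → z'.1 - z.1 ≤ ρ * c := by
    rintro _ ⟨x, hx, rfl⟩ _ ⟨y, hy, rfl⟩ h2
    apply hdiam x hx
    have hy' : x + ((triE cb y).1 - (triE cb x).1) • cb 2 = y := by
      apply (triE cb).injective
      rw [hshift]
      refine Prod.ext ?_ ?_
      · simp
      · exact h2
    rw [hy']
    exact hy
  have hm := model_sub (triE cb '' K) (triE cb '' K') hKm hKmconv hK'm c ρ hc hρ hchordm hdiamm S hS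
  rw [← hcap, hsnd, hκ', hκ'] at hm
  have hm' : κ * (volume (K' ∩ planeCoords (cb 0) (cb 1) ⁻¹' S)
      * volume (planeCoords (cb 0) (cb 1) '' K))
      ≤ κ * (ENNReal.ofReal (3 * ρ) * volume K * volume S) := by
    calc κ * (volume (K' ∩ planeCoords (cb 0) (cb 1) ⁻¹' S)
          * volume (planeCoords (cb 0) (cb 1) '' K))
        = κ * volume (K' ∩ planeCoords (cb 0) (cb 1) ⁻¹' S)
          * volume (planeCoords (cb 0) (cb 1) '' K) := by ring
      _ ≤ ENNReal.ofReal (3 * ρ) * (κ * volume K) * volume S := hm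
      _ = κ * (ENNReal.ofReal (3 * ρ) * volume K * volume S) := by ring
  exact (ENNReal.mul_le_mul_iff_right hκ0 hκtop).1 hm'

end Vale.Agent.Lib.P243.H80
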