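import Mathlib
import Vale.Agent.Lib.P243.helper18.TetraCyl
import Vale.Agent.Lib.P243.helper80.TetraChord

/-!
The core of a tetrahedron (barycentric weights in `CoreW τ`) is compact and fills all of the
tetrahedron except a fraction `18 τ ^ 2 + 32 τ ^ 3` of its volume.
-/

namespace Vale.Agent.Lib.P243.H80

open MeasureTheory Set Vale.Agent.Lib.P243 Vale.Agent.Lib.P243.H18
open scoped Pointwise

section general

variable {E : Type*} [AddCommGroup E] [Module ℝ E]

/-- The core of the tetrahedron with vertices `v 0, …, v 3`. -/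
def tcoreT (τ : ℝ) (v : Fin 4 → E) : Set E :=
  {x | ∃ l : Fin 4 → ℝ, CoreW τ l ∧ ∑ i, l i • v i = x}

/-- The part of the tetrahedron near the edge opposite to the vertices `i`, `j`. -/
def pairPiece (τ : ℝ) (v : Fin 4 → E) (i j : Fin 4) : Set E :=
  {x | ∃ t : Fin 4 → ℝ, (∀ k, 0 ≤ t k) ∧ ∑ k, t k = 1 ∧ ∑ k, t k • v k = x ∧ t i + t j < τ}

/-- The part of the tetrahedron near the vertex `i`. -/
def capPiece (τ : ℝ) (v : Fin 4 → E) (i : Fin 4) : Set E :=
  {x | ∃ t : Fin 4 → ℝ, (∀ k, 0 ≤ t k) ∧ ∑ k, t k = 1 ∧ ∑ k, t k • v k = x ∧ 1 - 2 * τ < t i}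

lemma tcoreT_subset_tetra (τ : ℝ) (v : Fin 4 → E) : tcoreT τ v ⊆ tetra v := by
  rintro x ⟨l, hl, rfl⟩
  exact ⟨l, hl.1, hl.2.1, rfl⟩

/-- The index set of the six pairs. -/
def pairs : Finset (Fin 4 × Fin 4) := Finset.univ.filter (fun p => p.1 < p.2)

lemma card_pairs : pairs.card = 6 := by decide

lemma tetra_cover (τ : ℝ) (v : Fin 4 → E) :
    tetra v ⊆ tcoreT τ v ∪ (⋃ p ∈ pairs, pairPiece τ v p.1 p.2) ∪ ⋃ i, capPiece τ v i := by
  rintro x ⟨t, ht0, ht1, rfl⟩
  by_cases hcore : CoreW τ t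
  · exact Or.inl (Or.inl ⟨t, hcore, rfl⟩)
  · unfold CoreW at hcore
    simp only [not_and_or] at hcore
    rcases hcore with h | h | h | h
    · exact absurd ht0 h
    · exact absurd ht1 h
    · push Not at h
      obtain ⟨i, j, hij, hlt⟩ := h
      refine Or.inl (Or.inr ?_)
      rcases lt_or_gt_of_ne hij with h1 | h1
      · refine mem_iUnion₂.2 ⟨(i, j), ?_, ⟨t, ht0, ht1, rfl, hlt⟩⟩
        simp [pairs, h1]
      · refine mem_iUnion₂.2 ⟨(j, i), ?_, ⟨t, ht0, ht1, rfl, by rw [add_comm]; exact hlt⟩⟩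
        simp [pairs, h1]
    · push Not at h
      obtain ⟨i, hi⟩ := h
      exact Or.inr (mem_iUnion.2 ⟨i, ⟨t, ht0, ht1, rfl, hi⟩⟩)

/-- A point with barycentric weights `t`, in the parametrization based at `σ 0`. -/
lemma par_perm (v : Fin 4 → E) (σ : Equiv.Perm (Fin 4)) (t : Fin 4 → ℝ) (ht1 : ∑ k, t k = 1) :
    (v ∘ σ) 0 + parL (v ∘ σ) (t (σ 1), t (σ 2), t (σ 3)) = ∑ k, t k • v k := by
  have hsum : ∑ k, t (σ k) = 1 := by rw [← ht1]; exact Equiv.sum_comp σ t
  have hsum2 : ∑ k, t k • v k = ∑ k, t (σ k) • v (σ k) :=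
    (Equiv.sum_comp σ (fun k => t k • v k)).symm
  rw [Fin.sum_univ_four] at hsum
  have h0 : t (σ 0) = 1 - t (σ 1) - t (σ 2) - t (σ 3) := by linarith
  rw [hsum2, Fin.sum_univ_four, parL_apply, h0]
  simp only [Function.comp_apply]
  module

end general

lemma isCompact_tcoreT (τ : ℝ) (v : Fin 4 → V3) : IsCompact (tcoreT τ v) := by
  have h1 : IsClosed {l : Fin 4 → ℝ | ∀ i, 0 ≤ l i} := by
    simp only [Set.ofPred_forall]
    exact isClosed_iInter fun i => isClosed_le continuous_const (continuous_apply i)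
  have h2 : IsClosed {l : Fin 4 → ℝ | ∑ i, l i = 1} :=
    isClosed_eq (continuous_finsetSum _ fun i _ => continuous_apply i) continuous_const
  have h3 : IsClosed {l : Fin 4 → ℝ | ∀ i j, i ≠ j → τ ≤ l i + l j} := by
    simp only [Set.ofPred_forall]
    exact isClosed_iInter fun i => isClosed_iInter fun j => isClosed_iInter fun _ =>
      isClosed_le continuous_const ((continuous_apply i).add (continuous_apply j))
  have h4 : IsClosed {l : Fin 4 → ℝ | ∀ i, l i ≤ 1 - 2 * τ} := by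
    simp only [Set.ofPred_forall]
    exact isClosed_iInter fun i => isClosed_le (continuous_apply i) continuous_const
  have hclosed : IsClosed {l : Fin 4 → ℝ | CoreW τ l} := h1.inter (h2.inter (h3.inter h4))
  have hsub : {l : Fin 4 → ℝ | CoreW τ l} ⊆ Icc (0 : Fin 4 → ℝ) 1 := by
    intro l hl
    refine ⟨fun i => hl.1 i, fun i => ?_⟩
    have h := Finset.single_le_sum (f := l) (fun k _ => hl.1 k) (Finset.mem_univ i)
    rw [hl.2.1] at h
    exact h
  have hcomp : IsCompact {l : Fin 4 → ℝ | CoreW τ l} :=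
    IsCompact.of_isClosed_subset isCompact_Icc hclosed hsub
  have hcont : Continuous (fun l : Fin 4 → ℝ => ∑ i, l i • v i) :=
    continuous_finsetSum _ fun i _ => (continuous_apply i).smul continuous_const
  have himg : tcoreT τ v = (fun l : Fin 4 → ℝ => ∑ i, l i • v i) '' {l | CoreW τ l} := by
    ext x
    constructor
    · rintro ⟨l, hl, rfl⟩
      exact ⟨l, hl, rfl⟩
    · rintro ⟨l, hl, rfl⟩
      exact ⟨l, hl, rfl⟩
  rw [himg]
  exact hcomp.image hcont

lemma tetra_perm (v : Fin 4 → V3) (σ : Equiv.Perm (Fin 4)) : tetra (v ∘ σ) = tetra v := by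
  rw [← convexHull_range_eq_tetra, ← convexHull_range_eq_tetra, EquivLike.range_comp]

lemma Tri_le : volume Tri ≤ 3 * volume Simp := by
  have h := Simp_ge
  have h3 : (3 : ENNReal) * (ENNReal.ofReal (1 / 3) * volume Tri) = volume Tri := by
    rw [← mul_assoc, show (3 : ENNReal) = ENNReal.ofReal 3 by simp,
      ← ENNReal.ofReal_mul (by norm_num)]
    norm_num
  rw [← h3]
  gcongr

lemma exists_perm23 (i j : Fin 4) (h : i ≠ j) :
    ∃ σ : Equiv.Perm (Fin 4), σ 2 = i ∧ σ 3 = j := by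
  revert i j
  decide

lemma exists_perm0 (i : Fin 4) : ∃ σ : Equiv.Perm (Fin 4), σ 0 = i := by
  revert i
  decide

/-- The part near an edge has at most the fraction `3 τ ^ 2` of the volume. -/
lemma pair_vol (v : Fin 4 → V3) (hv : AffineIndependent ℝ v) (τ : ℝ) (i j : Fin 4)
    (hij : i ≠ j) :
    volume (pairPiece τ v i j) ≤ ENNReal.ofReal (3 * τ ^ 2) * volume (tetra v) := by
  obtain ⟨σ, h2, h3⟩ := exists_perm23 i j hij
  have hu : AffineIndependent ℝ (v ∘ σ) := hv.comp_embedding σ.toEmbedding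
  have := haar_triple
  obtain ⟨κ, -, -, hκ⟩ := exists_scale (volume : Measure (ℝ × ℝ × ℝ))
    (volume : Measure V3) (parE (v ∘ σ) hu) ((v ∘ σ) 0)
  have hT : tetra v = (fun z => (v ∘ σ) 0 + parE (v ∘ σ) hu z) '' Simp := by
    rw [← tetra_perm v σ]
    exact (par_image_Simp (v ∘ σ)).symm
  have hsub : pairPiece τ v i j
      ⊆ (fun z => (v ∘ σ) 0 + parE (v ∘ σ) hu z) '' (Icc (0 : ℝ) 1 ×ˢ (τ • Tri)) := by
    rintro x ⟨t, ht0, ht1, rfl, hlt⟩
    have hτ : 0 < τ := by
      have := ht0 i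
      have := ht0 j
      linarith
    refine ⟨(t (σ 1), t (σ 2), t (σ 3)), ⟨⟨ht0 _, ?_⟩, ?_⟩, ?_⟩
    · have h := Finset.single_le_sum (f := t) (fun k _ => ht0 k) (Finset.mem_univ (σ 1))
      rw [ht1] at h
      exact h
    · refine ⟨(t (σ 2) / τ, t (σ 3) / τ), ⟨div_nonneg (ht0 _) hτ.le, div_nonneg (ht0 _) hτ.le, ?_⟩,
        ?_⟩
      · simp only
        rw [← add_div, div_le_one hτ, h2, h3]
        exact hlt.le
      · ext
        · simp only [Prod.smul_fst, smul_eq_mul]
          field_simp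
        · simp only [Prod.smul_snd, smul_eq_mul]
          field_simp
    · show (v ∘ σ) 0 + parL (v ∘ σ) (t (σ 1), t (σ 2), t (σ 3)) = _
      exact par_perm v σ t ht1
  have hfr : Module.finrank ℝ (ℝ × ℝ) = 2 := by simp
  have hbox : volume (Icc (0 : ℝ) 1 ×ˢ (τ • Tri)) = ENNReal.ofReal (τ ^ 2) * volume Tri := by
    rw [Measure.volume_eq_prod ℝ (ℝ × ℝ), Measure.prod_prod, Real.volume_Icc,
      Measure.addHaar_smul, hfr, abs_of_nonneg (sq_nonneg _)]
    simp
  calc volume (pairPiece τ v i j)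
      ≤ volume ((fun z => (v ∘ σ) 0 + parE (v ∘ σ) hu z) '' (Icc (0 : ℝ) 1 ×ˢ (τ • Tri))) :=
        measure_mono hsub
    _ = κ * (ENNReal.ofReal (τ ^ 2) * volume Tri) := by rw [hκ, hbox]
    _ ≤ κ * (ENNReal.ofReal (τ ^ 2) * (3 * volume Simp)) := by
        gcongr
        exact Tri_le
    _ = ENNReal.ofReal (3 * τ ^ 2) * (κ * volume Simp) := by
        rw [ENNReal.ofReal_mul (by norm_num)]
        simp only [ENNReal.ofReal_ofNat]
        ring
    _ = ENNReal.ofReal (3 * τ ^ 2) * volume (tetra v) := by rw [hT, hκ]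

/-- The part near a vertex has at most the fraction `8 τ ^ 3` of the volume. -/
lemma cap_vol (v : Fin 4 → V3) (hv : AffineIndependent ℝ v) (τ : ℝ) (i : Fin 4) :
    volume (capPiece τ v i) ≤ ENNReal.ofReal (8 * τ ^ 3) * volume (tetra v) := by
  obtain ⟨σ, h0⟩ := exists_perm0 i
  have hu : AffineIndependent ℝ (v ∘ σ) := hv.comp_embedding σ.toEmbedding
  have := haar_triple
  obtain ⟨κ, -, -, hκ⟩ := exists_scale (volume : Measure (ℝ × ℝ × ℝ))
    (volume : Measure V3) (parE (v ∘ σ) hu) ((v ∘ σ) 0)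
  have hT : tetra v = (fun z => (v ∘ σ) 0 + parE (v ∘ σ) hu z) '' Simp := by
    rw [← tetra_perm v σ]
    exact (par_image_Simp (v ∘ σ)).symm
  have hsub : capPiece τ v i
      ⊆ (fun z => (v ∘ σ) 0 + parE (v ∘ σ) hu z) '' ((2 * τ) • Simp) := by
    rintro x ⟨t, ht0, ht1, rfl, hlt⟩
    have hsum : ∑ k, t (σ k) = 1 := by rw [← ht1]; exact Equiv.sum_comp σ t
    rw [Fin.sum_univ_four, h0] at hsum
    have hτ : 0 < τ := by
      have h := Finset.single_le_sum (f := t) (fun k _ => ht0 k) (Finset.mem_univ i)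
      rw [ht1] at h
      linarith
    have h2τ : 0 < 2 * τ := by linarith
    refine ⟨(t (σ 1), t (σ 2), t (σ 3)), ?_, ?_⟩
    · refine ⟨(t (σ 1) / (2 * τ), t (σ 2) / (2 * τ), t (σ 3) / (2 * τ)),
        ⟨div_nonneg (ht0 _) h2τ.le, div_nonneg (ht0 _) h2τ.le, div_nonneg (ht0 _) h2τ.le, ?_⟩, ?_⟩
      · simp only
        rw [← add_div, ← add_div, div_le_one h2τ]
        linarith
      · ext
        · simp only [Prod.smul_fst, smul_eq_mul]
          field_simp
        · simp only [Prod.smul_snd, Prod.smul_fst, smul_eq_mul]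
          field_simp
        · simp only [Prod.smul_snd, smul_eq_mul]
          field_simp
    · show (v ∘ σ) 0 + parL (v ∘ σ) (t (σ 1), t (σ 2), t (σ 3)) = _
      exact par_perm v σ t ht1
  have hfr : Module.finrank ℝ (ℝ × ℝ × ℝ) = 3 := by simp
  have hball : volume ((2 * τ) • Simp) = ENNReal.ofReal (|(2 * τ) ^ 3|) * volume Simp := by
    rw [Measure.addHaar_smul, hfr]
  by_cases hτ : 0 ≤ τ
  · calc volume (capPiece τ v i)
        ≤ volume ((fun z => (v ∘ σ) 0 + parE (v ∘ σ) hu z) '' ((2 * τ) • Simp)) :=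
          measure_mono hsub
      _ = κ * (ENNReal.ofReal (|(2 * τ) ^ 3|) * volume Simp) := by rw [hκ, hball]
      _ = ENNReal.ofReal (8 * τ ^ 3) * (κ * volume Simp) := by
          rw [abs_of_nonneg (by positivity), show (2 * τ) ^ 3 = 8 * τ ^ 3 by ring]
          ring
      _ = ENNReal.ofReal (8 * τ ^ 3) * volume (tetra v) := by rw [hT, hκ]
  · have hempty : capPiece τ v i = ∅ := by
      rw [eq_empty_iff_forall_notMem]
      rintro x ⟨t, ht0, ht1, -, hlt⟩
      have h := Finset.single_le_sum (f := t) (fun k _ => ht0 k) (Finset.mem_univ i)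
      rw [ht1] at h
      push Not at hτ
      linarith
    rw [hempty, measure_empty]
    exact zero_le

/-- The core fills the tetrahedron up to the fraction `18 τ ^ 2 + 32 τ ^ 3` of its volume. -/
theorem core_volume (v : Fin 4 → V3) (hv : AffineIndependent ℝ v) (τ : ℝ) (hτ : 0 ≤ τ) :
    volume (tetra v)
      ≤ volume (tcoreT τ v) + ENNReal.ofReal (18 * τ ^ 2 + 32 * τ ^ 3) * volume (tetra v) := by
  have h1 : volume (⋃ p ∈ pairs, pairPiece τ v p.1 p.2)
      ≤ ENNReal.ofReal (18 * τ ^ 2) * volume (tetra v) := by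
    calc volume (⋃ p ∈ pairs, pairPiece τ v p.1 p.2)
        ≤ ∑ p ∈ pairs, volume (pairPiece τ v p.1 p.2) := measure_biUnion_finset_le _ _
      _ ≤ ∑ _p ∈ pairs, ENNReal.ofReal (3 * τ ^ 2) * volume (tetra v) := by
          refine Finset.sum_le_sum fun p hp => ?_
          have hp' : p.1 < p.2 := by
            simpa [pairs] using hp
          exact pair_vol v hv τ p.1 p.2 hp'.ne
      _ = ENNReal.ofReal (18 * τ ^ 2) * volume (tetra v) := by
          rw [Finset.sum_const, card_pairs, nsmul_eq_mul, ← mul_assoc,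
            show ((6 : ℕ) : ENNReal) = ENNReal.ofReal 6 by simp,
            ← ENNReal.ofReal_mul (by norm_num)]
          congr 2
          ring
  have h2 : volume (⋃ i, capPiece τ v i) ≤ ENNReal.ofReal (32 * τ ^ 3) * volume (tetra v) := by
    calc volume (⋃ i, capPiece τ v i)
        ≤ ∑ i, volume (capPiece τ v i) := measure_iUnion_fintype_le _ _
      _ ≤ ∑ _i : Fin 4, ENNReal.ofReal (8 * τ ^ 3) * volume (tetra v) :=
          Finset.sum_le_sum fun i _ => cap_vol v hv τ i
      _ = ENNReal.ofReal (32 * τ ^ 3) * volume (tetra v) := by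
          rw [Finset.sum_const, Finset.card_univ, Fintype.card_fin, nsmul_eq_mul, ← mul_assoc,
            show ((4 : ℕ) : ENNReal) = ENNReal.ofReal 4 by simp,
            ← ENNReal.ofReal_mul (by norm_num)]
          congr 2
          ring
  calc volume (tetra v)
      ≤ volume (tcoreT τ v ∪ (⋃ p ∈ pairs, pairPiece τ v p.1 p.2) ∪ ⋃ i, capPiece τ v i) :=
        measure_mono (tetra_cover τ v)
    _ ≤ volume (tcoreT τ v) + volume (⋃ p ∈ pairs, pairPiece τ v p.1 p.2)
          + volume (⋃ i, capPiece τ v i) :=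
        (measure_union_le _ _).trans (add_le_add (measure_union_le _ _) le_rfl)
    _ ≤ volume (tcoreT τ v) + ENNReal.ofReal (18 * τ ^ 2) * volume (tetra v)
          + ENNReal.ofReal (32 * τ ^ 3) * volume (tetra v) := by gcongr
    _ = volume (tcoreT τ v) + ENNReal.ofReal (18 * τ ^ 2 + 32 * τ ^ 3) * volume (tetra v) := by
        rw [add_assoc, ← add_mul, ENNReal.ofReal_add (by positivity) (by positivity)]

end Vale.Agent.Lib.P243.H80
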