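import Mathlib
import Vale.Agent.Lib.P243.helper80.TetraE3
import Vale.Agent.Lib.P243.helper80.TetraVol
import Vale.Agent.Lib.P243.helper18.Directionwise

/-!
A uniform lower bound for coverings of a tetrahedron by cylinders with arbitrary axes.
-/

namespace Vale.Agent.Lib.P243.H80

open MeasureTheory Set Vale.Agent.Lib.P243 Vale.Agent.Lib.P243.Cap Vale.Agent.Lib.P243.H18
open scoped RealInnerProductSpace

lemma continuous_planeCoords' (a b : V3) : Continuous (planeCoords a b) := by
  unfold planeCoords
  fun_prop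

/-- One cylinder: the part of the core inside a cylinder with measurable base. -/
lemma tetra_cyl (v : Fin 4 → V3) (hv : AffineIndependent ℝ v) (τ : ℝ) (hτ : τ ≤ 1 / 2)
    (a b : V3) (hab : OrthoPair a b) (S : Set (ℝ × ℝ)) (hS : MeasurableSet S) :
    volume (tcoreT τ v ∩ planeCoords a b ⁻¹' S) * volume (planeCoords a b '' tetra v)
      ≤ ENNReal.ofReal (3 * (1 - 2 * τ)) * volume (tetra v) * volume S := by
  obtain ⟨cb, hc0, hc1⟩ := exists_basis_three finrank_E3 a b hab.1 hab.2.1
    (by rw [real_inner_comm]; exact hab.2.2)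
  obtain ⟨z, hz⟩ := (parE v hv).surjective (cb 2)
  set w : Fin 4 → ℝ := ![-(z.1 + z.2.1 + z.2.2), z.1, z.2.1, z.2.2] with hw
  have hw0 : ∑ i, w i = 0 := by
    simp [hw, Fin.sum_univ_four]
    ring
  have hwu : ∑ i, w i • v i = cb 2 := by
    rw [← hz, parE_apply, parL_apply]
    simp only [hw, Fin.sum_univ_four, Matrix.cons_val_zero, Matrix.cons_val_one,
      Matrix.cons_val]
    module
  have hne : cb 2 ≠ 0 := cb.orthonormal.ne_zero 2
  obtain ⟨p, q, c, hc, hp0, hp1, hq0, hq1, hpq, hdiam⟩ :=
    tetra_chord v hv w hw0 (cb 2) hwu hne τ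
  have hKc : IsCompact (tetra v) := by
    rw [← convexHull_range_eq_tetra]
    exact (Set.finite_range v).isCompact_convexHull ℝ
  have hKconv : Convex ℝ (tetra v) := by
    rw [← convexHull_range_eq_tetra]
    exact convex_convexHull ℝ _
  have h := e3_sub_capture (tetra v) (tcoreT τ v) hKc hKconv (isCompact_tcoreT τ v) cb
    (1 - 2 * τ) c (by linarith) hc.le
    ⟨∑ i, p i • v i, ⟨p, hp0, hp1, rfl⟩, ⟨q, hq0, hq1, by rw [← hpq]; abel⟩⟩
    (by
      rintro x ⟨l, hl, rfl⟩ t ⟨m, hm, hmx⟩
      have := hdiam l m hl hm t (by rw [hmx]; abel)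
      exact (le_abs_self t).trans this)
    S hS
  rw [hc0, hc1] at h
  exact h

/-- Every finite covering of a tetrahedron by cylinders has directionwise relative area at
least `317 / 900`. -/
theorem tetra_uniform (v : Fin 4 → V3) (hv : AffineIndependent ℝ v) {m : ℕ} (a b : Fin m → V3)
    (hab : ∀ i, OrthoPair (a i) (b i)) (S : Fin m → Set (ℝ × ℝ))
    (hcov : convexHull ℝ (range v) ⊆ ⋃ i, planeCoords (a i) (b i) ⁻¹' S i) :
    ENNReal.ofReal (317 / 900) ≤ ∑ i, volume (S i)
      / volume (planeCoords (a i) (b i) '' convexHull ℝ (range v)) := by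
  have hspan : affineSpan ℝ (range v) = ⊤ :=
    hv.affineSpan_eq_top_iff_card_eq_finrank_add_one.2 (by simp)
  have hint : (interior (convexHull ℝ (range v))).Nonempty :=
    interior_convexHull_nonempty_iff_affineSpan_eq_top.2 hspan
  rw [convexHull_range_eq_tetra] at hcov hint ⊢
  have hKc : IsCompact (tetra v) := by
    rw [← convexHull_range_eq_tetra]
    exact (Set.finite_range v).isCompact_convexHull ℝ
  have hVfin : volume (tetra v) < ⊤ := hKc.measure_lt_top
  have hVpos : 0 < volume (tetra v) := Measure.measure_pos_of_nonempty_interior volume hint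
  have hPpos : ∀ i, 0 < volume (planeCoords (a i) (b i) '' tetra v) := fun i =>
    planeCoords_area_pos (tetra v) hint (a i) (b i) (hab i)
  have hPfin : ∀ i, volume (planeCoords (a i) (b i) '' tetra v) ≠ ⊤ := fun i =>
    (hKc.image (continuous_planeCoords' (a i) (b i))).measure_lt_top.ne
  have hcyl : ∀ i, volume (tcoreT (1 / 20) v
        ∩ planeCoords (a i) (b i) ⁻¹' toMeasurable volume (S i))
      ≤ ENNReal.ofReal (27 / 10) * volume (tetra v)
        * (volume (S i) / volume (planeCoords (a i) (b i) '' tetra v)) := by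
    intro i
    have h := tetra_cyl v hv (1 / 20) (by norm_num) (a i) (b i) (hab i)
      (toMeasurable volume (S i)) (measurableSet_toMeasurable _ _)
    rw [measure_toMeasurable, show (3 * (1 - 2 * (1 / 20)) : ℝ) = 27 / 10 by norm_num] at h
    calc volume (tcoreT (1 / 20) v ∩ planeCoords (a i) (b i) ⁻¹' toMeasurable volume (S i))
        = volume (tcoreT (1 / 20) v ∩ planeCoords (a i) (b i) ⁻¹' toMeasurable volume (S i))
          * volume (planeCoords (a i) (b i) '' tetra v)
          / volume (planeCoords (a i) (b i) '' tetra v) :=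
          (ENNReal.mul_div_cancel_right (hPpos i).ne' (hPfin i)).symm
      _ ≤ ENNReal.ofReal (27 / 10) * volume (tetra v) * volume (S i)
          / volume (planeCoords (a i) (b i) '' tetra v) := ENNReal.div_le_div_right h _
      _ = _ := by rw [mul_div_assoc]
  have hcovO : volume (tcoreT (1 / 20) v)
      ≤ ∑ i, volume (tcoreT (1 / 20) v
        ∩ planeCoords (a i) (b i) ⁻¹' toMeasurable volume (S i)) := by
    refine (measure_mono ?_).trans (measure_iUnion_fintype_le _ _)
    intro x hx
    obtain ⟨i, hi⟩ := mem_iUnion.1 (hcov (tcoreT_subset_tetra _ v hx))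
    exact mem_iUnion.2 ⟨i, hx, subset_toMeasurable _ _ hi⟩
  have hvol := core_volume v hv (1 / 20) (by norm_num)
  rw [show (18 * (1 / 20 : ℝ) ^ 2 + 32 * (1 / 20) ^ 3) = 49 / 1000 by norm_num] at hvol
  have hmain : volume (tetra v) * 1 ≤ volume (tetra v)
      * (ENNReal.ofReal (27 / 10) * (∑ i, volume (S i)
          / volume (planeCoords (a i) (b i) '' tetra v)) + ENNReal.ofReal (49 / 1000)) := by
    calc volume (tetra v) * 1 = volume (tetra v) := mul_one _
      _ ≤ volume (tcoreT (1 / 20) v) + ENNReal.ofReal (49 / 1000) * volume (tetra v) := hvol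
      _ ≤ (∑ i, ENNReal.ofReal (27 / 10) * volume (tetra v)
            * (volume (S i) / volume (planeCoords (a i) (b i) '' tetra v)))
            + ENNReal.ofReal (49 / 1000) * volume (tetra v) := by
          gcongr
          exact hcovO.trans (Finset.sum_le_sum fun i _ => hcyl i)
      _ = _ := by
          rw [Finset.mul_sum, mul_add, Finset.mul_sum]
          congr 1
          · refine Finset.sum_congr rfl fun i _ => ?_
            ring
          · ring
  have h1 := (ENNReal.mul_le_mul_iff_right hVpos.ne' hVfin.ne).1 hmain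
  by_contra hlt
  push Not at hlt
  have hRfin : (∑ i, volume (S i) / volume (planeCoords (a i) (b i) '' tetra v)) ≠ ⊤ :=
    (hlt.trans ENNReal.ofReal_lt_top).ne
  obtain ⟨r, hr⟩ : ∃ r : ℝ, 0 ≤ r ∧ (∑ i, volume (S i)
      / volume (planeCoords (a i) (b i) '' tetra v)) = ENNReal.ofReal r :=
    ⟨_, ENNReal.toReal_nonneg, (ENNReal.ofReal_toReal hRfin).symm⟩
  rw [hr.2] at hlt h1
  have hr2 : r < 317 / 900 := (ENNReal.ofReal_lt_ofReal_iff (by norm_num)).1 hlt
  rw [← ENNReal.ofReal_mul (by norm_num), ← ENNReal.ofReal_add (by linarith [hr.1])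
    (by norm_num), ← ENNReal.ofReal_one, ENNReal.ofReal_le_ofReal_iff (by linarith [hr.1])] at h1
  linarith

/-- The same covering has total base area at least `317 / 900` of the minimal projection
area. -/
theorem tetra_uniform_amin (v : Fin 4 → V3) (hv : AffineIndependent ℝ v) {m : ℕ}
    (a b : Fin m → V3) (hab : ∀ i, OrthoPair (a i) (b i)) (S : Fin m → Set (ℝ × ℝ))
    (hcov : convexHull ℝ (range v) ⊆ ⋃ i, planeCoords (a i) (b i) ⁻¹' S i) :
    ENNReal.ofReal (317 / 900) * (⨅ (a' : V3) (b' : V3) (_ : OrthoPair a' b'),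
        volume (planeCoords a' b' '' convexHull ℝ (range v))) ≤ ∑ i, volume (S i) := by
  set A : ENNReal := ⨅ (a' : V3) (b' : V3) (_ : OrthoPair a' b'),
    volume (planeCoords a' b' '' convexHull ℝ (range v)) with hA
  have h := tetra_uniform v hv a b hab S hcov
  have hle : ∀ i, A ≤ volume (planeCoords (a i) (b i) '' convexHull ℝ (range v)) := fun i =>
    iInf_le_of_le (a i) (iInf_le_of_le (b i) (iInf_le_of_le (hab i) le_rfl))
  have h2 : ENNReal.ofReal (317 / 900) ≤ (∑ i, volume (S i)) / A := by
    refine h.trans ?_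
    rw [ENNReal.div_eq_inv_mul, Finset.mul_sum]
    refine Finset.sum_le_sum fun i _ => ?_
    rw [← ENNReal.div_eq_inv_mul]
    exact ENNReal.div_le_div_left (hle i) _
  rcases eq_or_ne A 0 with h0 | h0
  · rw [h0, mul_zero]
    exact zero_le
  rcases eq_or_ne A ⊤ with ht | ht
  · rw [ht, ENNReal.div_top] at h2
    have : (0 : ℝ) < 317 / 900 := by norm_num
    exact absurd h2 (by simp [this])
  exact (ENNReal.le_div_iff_mul_le (Or.inl h0) (Or.inl ht)).1 h2

end Vale.Agent.Lib.P243.H80
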